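import Vale.Agent.P039.Bridge

/-!
Hamiltonicity when the non-quadrilateral faces of one colour class split into two forests.
-/

namespace Vale.Agent.Results.P039.TwoForestFaces

open Vale.Agent.P039 Equiv

theorem result {V : Type*} [Fintype V] [DecidableEq V] (G : SimpleGraph V) [DecidableRel G.Adj]
    (ρ : Perm G.Dart) (col : V → Bool) (C : G.Dart → Prop)
    (hrot : IsRotation ρ)
    (hdeg : ∀ v, G.degree v = 3)
    (hbip : ∀ u v, G.Adj u v → col u ≠ col v)
    (heuler : Fintype.card V + numFaces ρ = G.edgeFinset.card + 2)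
    (hcard : 4 ≤ Fintype.card V)
    (hconn : ∀ S : Finset V, S.card ≤ 2 → (G.induce {v | v ∉ S}).Connected)
    (hface : ∀ d, C d ↔ C (faceStep ρ d))
    (hcover : ∀ v, ∃! d, C d ∧ d.fst = v)
    (hbig : (∀ d₁ d₂ d₃, Big ρ C d₁ → Big ρ C d₂ → Big ρ C d₃ →
        SameFace ρ d₁ d₂ ∨ SameFace ρ d₁ d₃ ∨ SameFace ρ d₂ d₃) ∨
      (∃ b, ∀ d e, Big ρ C d → Big ρ C e → col d.fst = b → col e.fst = b →
        SameFace ρ d.symm e.symm → SameFace ρ d e) ∨
      ∃ (sd : G.Dart → Bool) (rk : G.Dart → ℕ),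
        (∀ d, sd (faceStep ρ d) = sd d ∧ rk (faceStep ρ d) = rk d) ∧
        (∀ d e, Big ρ C d → Big ρ C e → sd d = sd e → rk d = rk e → SameFace ρ d e) ∧
        ∀ d e f f', Big ρ C d → Big ρ C f → Big ρ C f' → SameFace ρ d e →
          col d.fst = sd d → col e.fst = sd d →
          sd f = sd d → rk f < rk d → col f.fst = sd d → SameFace ρ f.symm d.symm →
          sd f' = sd d → rk f' < rk d → col f'.fst = sd d → SameFace ρ f'.symm e.symm →
          SameFace ρ d.symm e.symm) :
    G.IsHamiltonian := by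
  classical
  have h : Setup G ρ col C := ⟨hrot, hdeg, hbip, heuler, hcard, hconn, hface, hcover⟩
  rcases hbig with h3 | ⟨b, hb⟩ | ⟨sd, rk, h1, h2, h4⟩
  · by_cases hex : ∃ d₀, Big ρ C d₀
    · obtain ⟨d₀, hd₀⟩ := hex
      refine h.hamiltonian (fun d => decide (SameFace ρ d₀ d)) (fun _ => 0)
        (fun d => ⟨?_, rfl⟩) ?_ fun d e f f' _ _ _ _ _ _ _ hlt => absurd hlt (lt_irrefl _)
      · exact decide_eq_decide.2 Equiv.Perm.sameCycle_apply_right
      · intro d e hd he hs _
        simp only [decide_eq_decide] at hs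
        rcases h3 d₀ d e hd₀ hd he with g | g | g
        · exact g.symm.trans (hs.1 g)
        · exact (hs.2 g).symm.trans g
        · exact g
    · exact h.hamiltonian (fun _ => true) (fun _ => 0) (fun _ => ⟨rfl, rfl⟩)
        (fun d _ hd => absurd ⟨d, hd⟩ hex) fun d _ _ _ hd => absurd ⟨d, hd⟩ hex
  · obtain ⟨n, ⟨e⟩⟩ := Finite.exists_equiv_fin (Quotient (cyc (faceStep ρ)))
    refine h.hamiltonian (fun _ => b) (fun d => (e (Quotient.mk _ d)).1)
      (fun d => ⟨rfl, ?_⟩) ?_ ?_
    · exact congrArg (fun q => (e q).1) (Quotient.sound (Equiv.Perm.SameCycle.symm (rel_step (f := faceStep ρ))))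
    · intro d d' _ _ _ hr
      exact Quotient.exact (e.injective (Fin.ext hr))
    · intro d d' f f' hd hf _ _ hcd _ _ hlt hcf hfd _ _ _ _
      have := Quotient.sound (s := cyc (faceStep ρ)) (hb f d hf hd hcf hcd hfd)
      rw [this] at hlt
      exact absurd hlt (lt_irrefl _)
  · exact h.hamiltonian sd rk h1 h2 h4

end Vale.Agent.Results.P039.TwoForestFaces
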